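import Mathlib
import Vale.Agent.P249.Disc

open scoped ENNReal BigOperators
open MeasureTheory

namespace Vale.Agent.P249

universe u

/-- Same as `discretize` (Disc.lean) with distortion `1 + η`. -/
theorem discretize_delta {α : Type u} [MeasurableSpace α] (μ : Measure α) (p : ℝ≥0∞)
    [Fact (1 ≤ p)] (hp : p ≠ ∞) {X : Type} [Fintype X] (f : X → Lp ℝ p μ)
    (hf : Function.Injective f) (η : ℝ) (hη : 0 < η) (hη1 : η < 1) :
    ∃ (m : ℕ) (g : X → PiLp p (fun _ : Fin m => ℝ)), ∀ x y,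
      (1 - η) * ‖f x - f y‖ ≤ ‖g x - g y‖ ∧ ‖g x - g y‖ ≤ (1 + η) * ‖f x - f y‖ := by
  classical
  have hp1 : (1 : ℝ≥0∞) ≤ p := Fact.out
  have hp0 : p ≠ 0 := fun h => by simp [h] at hp1
  have hpr : 0 < p.toReal := ENNReal.toReal_pos hp0 hp
  -- separation
  obtain ⟨δ, hδ, hsep⟩ : ∃ δ : ℝ, 0 < δ ∧ ∀ x y, x ≠ y → δ ≤ ‖f x - f y‖ := by
    by_cases hne : (Finset.univ.filter (fun q : X × X => q.1 ≠ q.2)).Nonempty
    · obtain ⟨q, hq, hmin⟩ := Finset.exists_min_image _ (fun q : X × X => ‖f q.1 - f q.2‖) hne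
      refine ⟨‖f q.1 - f q.2‖, ?_, fun x y hxy => ?_⟩
      · simp only [Finset.mem_filter, Finset.mem_univ, true_and] at hq
        exact norm_pos_iff.2 (sub_ne_zero.2 (fun h => hq (hf h)))
      · exact hmin (x, y) (by simp [hxy])
    · refine ⟨1, one_pos, fun x y hxy => ?_⟩
      exact absurd ⟨(x, y), by simp [hxy]⟩ hne
  -- simple approximations
  have hap : ∀ x, ∃ s : SimpleFunc α ℝ, eLpNorm (⇑(f x) - ⇑s) p μ < ENNReal.ofReal (η * δ / 2) ∧
      MemLp s p μ := fun x =>
    (Lp.memLp (f x)).exists_simpleFunc_eLpNorm_sub_lt hp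
      (by simp only [ne_eq, ENNReal.ofReal_eq_zero, not_le]; positivity)
  choose s hs hsm using hap
  let F : X → Lp ℝ p μ := fun x => (hsm x).toLp (s x)
  have hF : ∀ x, ‖f x - F x‖ ≤ η * δ / 2 := by
    intro x
    have h1 : f x - F x = ((Lp.memLp (f x)).sub (hsm x)).toLp _ := by
      rw [MemLp.toLp_sub (Lp.memLp (f x)) (hsm x), Lp.toLp_coeFn]
    rw [h1, Lp.norm_toLp]
    exact ENNReal.toReal_le_of_le_ofReal (by positivity) (hs x).le
  have hclose : ∀ x y, x ≠ y → (1 - η) * ‖f x - f y‖ ≤ ‖F x - F y‖ ∧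
      ‖F x - F y‖ ≤ (1 + η) * ‖f x - f y‖ := by
    intro x y hxy
    have h1 := hF x
    have h2 := hF y
    have h3 := mul_le_mul_of_nonneg_left (hsep x y hxy) hη.le
    have h4 : ‖f x - f y‖ ≤ ‖f x - F x‖ + ‖F x - F y‖ + ‖f y - F y‖ := by
      have : f x - f y = (f x - F x) + (F x - F y) - (f y - F y) := by abel
      rw [this]
      exact (norm_sub_le _ _).trans (by gcongr; exact norm_add_le _ _)
    have h5 : ‖F x - F y‖ ≤ ‖f x - F x‖ + ‖f x - f y‖ + ‖f y - F y‖ := by
      have : F x - F y = -(f x - F x) + (f x - f y) + (f y - F y) := by abel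
      rw [this]
      refine (norm_add_le _ _).trans ?_
      gcongr
      refine (norm_add_le _ _).trans ?_
      rw [norm_neg]
    constructor <;> linarith
  -- joint simple function
  let S : SimpleFunc α (X → ℝ) :=
    { toFun := fun a x => s x a
      measurableSet_fiber' := by
        intro v
        have : (fun a x => s x a) ⁻¹' {v} = ⋂ x, (s x) ⁻¹' {v x} := by
          ext a; simp [funext_iff]
        rw [this]
        exact MeasurableSet.iInter fun x => (s x).measurableSet_fiber (v x)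
      finite_range' := by
        refine (Set.Finite.pi (t := fun x => Set.range (s x)) (fun x => (s x).finite_range)).subset ?_
        rintro _ ⟨a, rfl⟩
        simp }
  have hS : ∀ a x, S a x = s x a := fun a x => rfl
  let e := S.range.equivFin
  let w : (X → ℝ) → ℝ := fun v => (μ (S ⁻¹' {v})).toReal ^ (1 / p.toReal)
  let g : X → PiLp p (fun _ : Fin (S.range.card) => ℝ) := fun x =>
    WithLp.toLp p (fun i => w (e.symm i).1 * (e.symm i).1 x)
  have hfin : ∀ (x y : X) (v : X → ℝ), v x ≠ v y → μ (S ⁻¹' {v}) ≠ ∞ := by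
    intro x y v hv
    have hex : ∃ z, v z ≠ 0 := by
      by_contra hcon
      push Not at hcon
      exact hv (by rw [hcon x, hcon y])
    obtain ⟨z, hz⟩ := hex
    have hlt : μ ((s z) ⁻¹' {v z}) < ∞ :=
      (SimpleFunc.memLp_iff hp0 hp).1 (hsm z) (v z) hz
    refine ne_top_of_le_ne_top hlt.ne (measure_mono ?_)
    intro a ha
    simp only [Set.mem_preimage, Set.mem_singleton_iff] at ha ⊢
    rw [← hS, ha]
  have hnorm : ∀ x y, ‖g x - g y‖ = ‖F x - F y‖ := by
    intro x y
    have hFxy : F x - F y = ((hsm x).sub (hsm y)).toLp _ := by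
      rw [MemLp.toLp_sub]
    rw [hFxy, Lp.norm_toLp, eLpNorm_eq_lintegral_rpow_enorm_toReal hp0 hp,
      PiLp.norm_eq_sum hpr]
    let φ : (X → ℝ) → ℝ≥0∞ := fun v => ‖v x - v y‖ₑ ^ p.toReal
    have h1 : ∫⁻ a, ‖(⇑(s x) - ⇑(s y)) a‖ₑ ^ p.toReal ∂μ = ∑ v ∈ S.range, φ v * μ (S ⁻¹' {v}) := by
      rw [← SimpleFunc.map_lintegral, ← SimpleFunc.lintegral_eq_lintegral]
      rfl
    rw [h1, ← ENNReal.toReal_rpow, ENNReal.toReal_sum]
    · congr 1
      rw [← Finset.sum_coe_sort S.range, ← e.symm.sum_comp]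
      refine Finset.sum_congr rfl fun i _ => ?_
      set v := (e.symm i).1 with hv
      have h2 : (g x - g y) i = w v * (v x - v y) := by
        simp only [g, PiLp.sub_apply]
        rw [← hv]; ring
      rw [h2, norm_mul, Real.mul_rpow (norm_nonneg _) (norm_nonneg _), ENNReal.toReal_mul]
      have h3 : ‖w v‖ ^ p.toReal = (μ (S ⁻¹' {v})).toReal := by
        simp only [w]
        rw [Real.norm_of_nonneg (by positivity), ← Real.rpow_mul ENNReal.toReal_nonneg]
        rw [one_div_mul_cancel hpr.ne', Real.rpow_one]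
      have h4 : (φ v).toReal = ‖v x - v y‖ ^ p.toReal := by
        simp only [φ]
        rw [← ENNReal.toReal_rpow, toReal_enorm]
      rw [h3, h4, mul_comm]
    · intro v _
      by_cases hv : v x = v y
      · simp [φ, hv, hpr]
      · exact ENNReal.mul_ne_top (by simp only [φ]; exact ENNReal.rpow_ne_top_of_nonneg hpr.le enorm_ne_top) (hfin x y v hv)
  refine ⟨S.range.card, g, fun x y => ?_⟩
  rw [hnorm]
  by_cases hxy : x = y
  · subst hxy; simp
  · exact hclose x y hxy

end Vale.Agent.P249
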