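import Mathlib

open scoped BigOperators

namespace Vale.Agent.P249

private lemma mgf_mul_aux {Ω : Type} [Fintype Ω] (w : Ω → ℝ) (hw : ∀ ω, 0 ≤ w ω)
    (hw1 : ∑ ω, w ω = 1) (Y : Ω → ℝ) (hY0 : ∀ ω, 0 ≤ Y ω) (hY1 : ∀ ω, Y ω ≤ 1)
    (m : ℝ) (hm : ∑ ω, w ω * Y ω = m)
    (l : ℝ) (hl : |l| ≤ 1) : ∑ ω, w ω * Real.exp (l * (Y ω - m)) ≤ Real.exp (l ^ 2 * m) := by
  have h1 : ∀ ω, w ω * Real.exp (l * Y ω) ≤ w ω + (l + l ^ 2) * (w ω * Y ω) := by
    intro ω
    have h2 : |l * Y ω| ≤ 1 := by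
      rw [abs_mul]
      exact mul_le_one₀ hl (abs_nonneg _) (by rw [abs_of_nonneg (hY0 ω)]; exact hY1 ω)
    have h3 := Real.abs_exp_sub_one_sub_id_le h2
    have h4 : Real.exp (l * Y ω) ≤ 1 + l * Y ω + (l * Y ω) ^ 2 := by
      have := (abs_le.mp h3).2
      linarith
    have h5 : (l * Y ω) ^ 2 ≤ l ^ 2 * Y ω := by
      rw [mul_pow]
      have : Y ω ^ 2 ≤ Y ω := by
        have := mul_le_mul_of_nonneg_left (hY1 ω) (hY0 ω)
        nlinarith
      exact mul_le_mul_of_nonneg_left this (sq_nonneg l)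
    calc w ω * Real.exp (l * Y ω) ≤ w ω * (1 + l * Y ω + l ^ 2 * Y ω) := by
          apply mul_le_mul_of_nonneg_left _ (hw ω)
          linarith
      _ = w ω + (l + l ^ 2) * (w ω * Y ω) := by ring
  have h2 : ∑ ω, w ω * Real.exp (l * Y ω) ≤ Real.exp (l * m + l ^ 2 * m) := by
    calc ∑ ω, w ω * Real.exp (l * Y ω) ≤ ∑ ω, (w ω + (l + l ^ 2) * (w ω * Y ω)) :=
        Finset.sum_le_sum (fun ω _ => h1 ω)
    _ = 1 + (l * m + l ^ 2 * m) := by
        rw [Finset.sum_add_distrib, ← Finset.mul_sum, hw1, hm]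
        ring
    _ ≤ Real.exp (l * m + l ^ 2 * m) := by
        have := Real.add_one_le_exp (l * m + l ^ 2 * m)
        linarith
  have h3 : ∑ ω, w ω * Real.exp (l * (Y ω - m))
      = Real.exp (-(l * m)) * ∑ ω, w ω * Real.exp (l * Y ω) := by
    rw [Finset.mul_sum]
    refine Finset.sum_congr rfl (fun ω _ => ?_)
    have : l * (Y ω - m) = -(l * m) + l * Y ω := by ring
    rw [this, Real.exp_add]
    ring
  rw [h3]
  calc Real.exp (-(l * m)) * ∑ ω, w ω * Real.exp (l * Y ω)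
      ≤ Real.exp (-(l * m)) * Real.exp (l * m + l ^ 2 * m) :=
        mul_le_mul_of_nonneg_left h2 (Real.exp_pos _).le
    _ = Real.exp (l ^ 2 * m) := by rw [← Real.exp_add]; ring_nf

private lemma prod_mul_aux {Ω : Type} [Fintype Ω] (w : Ω → ℝ) (hw : ∀ ω, 0 ≤ w ω)
    (hw1 : ∑ ω, w ω = 1) (Y : Ω → ℝ) (hY0 : ∀ ω, 0 ≤ Y ω) (hY1 : ∀ ω, Y ω ≤ 1)
    (m : ℝ) (hm : ∑ ω, w ω * Y ω = m)
    (l : ℝ) (hl : |l| ≤ 1) (N : ℕ) :
    ∑ s : Fin N → Ω, (∏ i, w (s i)) * Real.exp (l * ∑ i, (Y (s i) - m))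
      ≤ Real.exp (l ^ 2 * m * N) := by
  have h1 : ∀ s : Fin N → Ω, (∏ i, w (s i)) * Real.exp (l * ∑ i, (Y (s i) - m)) =
      ∏ i, (w (s i) * Real.exp (l * (Y (s i) - m))) := by
    intro s
    rw [Finset.prod_mul_distrib, Finset.mul_sum, Real.exp_sum]
  rw [Finset.sum_congr rfl (fun s _ => h1 s)]
  rw [← Fintype.sum_pow (fun ω => w ω * Real.exp (l * (Y ω - m))) N]
  calc (∑ ω, w ω * Real.exp (l * (Y ω - m))) ^ N ≤ (Real.exp (l ^ 2 * m)) ^ N := by
        apply pow_le_pow_left₀ _ (mgf_mul_aux w hw hw1 Y hY0 hY1 m hm l hl)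
        exact Finset.sum_nonneg (fun ω _ => mul_nonneg (hw ω) (Real.exp_pos _).le)
    _ = Real.exp (l ^ 2 * m * N) := by rw [← Real.exp_nat_mul]; ring_nf

/-- Multiplicative Chernoff bound with a union bound (compare `Sample.lean`).  Proof: for
`0 ≤ Y ≤ 1`, `E exp(l (Y - m)) ≤ exp((e^l - 1 - l) m) ≤ exp(l^2 m)` for `|l| ≤ 1`, take
`l = ± δ/2`. -/
theorem sampling_mul {Ω Q : Type} [Fintype Ω] [Fintype Q] (w : Ω → ℝ) (hw : ∀ ω, 0 ≤ w ω)
    (hw1 : ∑ ω, w ω = 1) (Y : Q → Ω → ℝ) (hY0 : ∀ q ω, 0 ≤ Y q ω) (hY1 : ∀ q ω, Y q ω ≤ 1)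
    (m : ℝ) (hm0 : 0 < m) (hm : ∀ q, ∑ ω, w ω * Y q ω = m)
    (δ : ℝ) (hδ : 0 < δ) (hδ1 : δ ≤ 1) (N : ℕ) (hN0 : 0 < N)
    (hN : 2 * (Fintype.card Q : ℝ) < Real.exp (δ ^ 2 * m * N / 4)) :
    ∃ s : Fin N → Ω, ∀ q, |(∑ i, Y q (s i)) / N - m| ≤ δ * m := by
  classical
  let Z : Q → Ω → ℝ := fun q ω => Y q ω - m
  let W : (Fin N → Ω) → ℝ := fun s => ∏ i, w (s i)
  have hW0 : ∀ s, 0 ≤ W s := fun s => Finset.prod_nonneg (fun i _ => hw _)
  have hW1 : ∑ s, W s = 1 := by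
    simp only [W]
    rw [← Fintype.sum_pow w N, hw1, one_pow]
  let l : ℝ := δ / 2
  have hl0 : 0 < l := by simp only [l]; linarith
  have hl : |l| ≤ 1 := by rw [abs_of_pos hl0]; simp only [l]; linarith
  have hl' : |-l| ≤ 1 := by rw [abs_neg]; exact hl
  let T : (Fin N → Ω) → ℝ := fun s =>
    ∑ q, (Real.exp (l * ∑ i, Z q (s i)) + Real.exp (-l * ∑ i, Z q (s i)))
  have hT : ∑ s, W s * T s ≤ 2 * (Fintype.card Q : ℝ) * Real.exp (l ^ 2 * m * N) := by
    have h1 : ∑ s, W s * T s = ∑ q, (∑ s, W s * Real.exp (l * ∑ i, Z q (s i)) +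
        ∑ s, W s * Real.exp (-l * ∑ i, Z q (s i))) := by
      simp only [T]
      simp_rw [Finset.mul_sum, mul_add]
      rw [Finset.sum_comm]
      refine Finset.sum_congr rfl (fun q _ => ?_)
      rw [Finset.sum_add_distrib]
    rw [h1]
    calc ∑ q, (∑ s, W s * Real.exp (l * ∑ i, Z q (s i)) +
        ∑ s, W s * Real.exp (-l * ∑ i, Z q (s i)))
        ≤ ∑ _q : Q, (Real.exp (l ^ 2 * m * N) + Real.exp (l ^ 2 * m * N)) := by
          refine Finset.sum_le_sum (fun q _ => add_le_add ?_ ?_)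
          · exact prod_mul_aux w hw hw1 (Y q) (hY0 q) (hY1 q) m (hm q) l hl N
          · have := prod_mul_aux w hw hw1 (Y q) (hY0 q) (hY1 q) m (hm q) (-l) hl' N
            rwa [neg_sq] at this
      _ = 2 * (Fintype.card Q : ℝ) * Real.exp (l ^ 2 * m * N) := by
          rw [Finset.sum_const, Finset.card_univ, nsmul_eq_mul]; ring
  have hex : ∃ s, T s < Real.exp (l * δ * m * N) := by
    by_contra hcon
    push Not at hcon
    have h1 : Real.exp (l * δ * m * N) ≤ ∑ s, W s * T s := by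
      calc Real.exp (l * δ * m * N) = ∑ s, W s * Real.exp (l * δ * m * N) := by
            rw [← Finset.sum_mul, hW1, one_mul]
        _ ≤ ∑ s, W s * T s :=
            Finset.sum_le_sum (fun s _ => mul_le_mul_of_nonneg_left (hcon s) (hW0 s))
    have h2 : Real.exp (l * δ * m * N) ≤ 2 * (Fintype.card Q : ℝ) * Real.exp (l ^ 2 * m * N) :=
      h1.trans hT
    have h3 : Real.exp (l * δ * m * N)
        = Real.exp (δ ^ 2 * m * N / 4) * Real.exp (l ^ 2 * m * N) := by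
      rw [← Real.exp_add]
      congr 1
      simp only [l]
      ring
    rw [h3] at h2
    have h4 := le_of_mul_le_mul_right h2 (Real.exp_pos _)
    linarith
  obtain ⟨s, hs⟩ := hex
  refine ⟨s, fun q => ?_⟩
  have hNpos : (0 : ℝ) < N := Nat.cast_pos.mpr hN0
  have hq1 : Real.exp (l * ∑ i, Z q (s i)) + Real.exp (-l * ∑ i, Z q (s i)) ≤ T s := by
    simp only [T]
    exact Finset.single_le_sum
      (f := fun q => Real.exp (l * ∑ i, Z q (s i)) + Real.exp (-l * ∑ i, Z q (s i)))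
      (fun q _ => add_nonneg (Real.exp_pos _).le (Real.exp_pos _).le) (Finset.mem_univ q)
  have hA : Real.exp (l * ∑ i, Z q (s i)) < Real.exp (l * δ * m * N) := by
    have := Real.exp_pos (-l * ∑ i, Z q (s i))
    linarith
  have hB : Real.exp (-l * ∑ i, Z q (s i)) < Real.exp (l * δ * m * N) := by
    have := Real.exp_pos (l * ∑ i, Z q (s i))
    linarith
  rw [Real.exp_lt_exp] at hA hB
  have hA' : ∑ i, Z q (s i) < δ * m * N := by
    have : l * ∑ i, Z q (s i) < l * (δ * m * N) := by linarith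
    exact lt_of_mul_lt_mul_left this hl0.le
  have hB' : -∑ i, Z q (s i) < δ * m * N := by
    have : l * (-∑ i, Z q (s i)) < l * (δ * m * N) := by linarith
    exact lt_of_mul_lt_mul_left this hl0.le
  have hsum : ∑ i, Z q (s i) = ∑ i, Y q (s i) - N * m := by
    simp only [Z]
    rw [Finset.sum_sub_distrib, Finset.sum_const, Finset.card_univ, Fintype.card_fin,
      nsmul_eq_mul]
  rw [hsum] at hA' hB'
  have hdiv : (∑ i, Y q (s i)) / N - m = (∑ i, Y q (s i) - N * m) / N := by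
    field_simp
  rw [hdiv, abs_le]
  constructor
  · rw [le_div_iff₀ hNpos]
    linarith
  · rw [div_le_iff₀ hNpos]
    linarith

end Vale.Agent.P249
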