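import Mathlib
import Vale.Agent.P249.Gibbs

open scoped BigOperators

namespace Vale.Agent.P249

theorem dyadic_sum (u : ℝ) (hu : 0 ≤ u) (J : ℕ) :
    ∑ j ∈ Finset.range J, (u / 2 ^ j) * Real.exp (-(u / 2 ^ j)) ≤ 2 := by
  have h1 : ∀ j ∈ Finset.range J, (u / 2 ^ j) * Real.exp (-(u / 2 ^ j)) ≤
      2 * (Real.exp (-(u / 2 ^ (j + 1))) - Real.exp (-(u / 2 ^ j))) := by
    intro j _
    set v := u / 2 ^ j with hv
    have hv2 : u / 2 ^ (j + 1) = v / 2 := by rw [hv, pow_succ, div_div]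
    rw [hv2]
    have h2 : Real.exp (-(v / 2)) = Real.exp (-v) * Real.exp (v / 2) := by
      rw [← Real.exp_add]; congr 1; ring
    rw [h2]
    have h3 := Real.add_one_le_exp (v / 2)
    have h4 := Real.exp_pos (-v)
    nlinarith
  refine (Finset.sum_le_sum h1).trans ?_
  rw [← Finset.mul_sum, Finset.sum_range_sub (fun j => Real.exp (-(u / 2 ^ j)))]
  have h5 : Real.exp (-(u / 2 ^ J)) ≤ 1 := by
    rw [Real.exp_le_one_iff]
    have : 0 ≤ u / 2 ^ J := by positivity
    linarith
  have h6 := Real.exp_pos (-(u / 2 ^ 0))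
  linarith

theorem pow_term_bound (P K t w : ℝ) (hP : 1 ≤ P) (hK : 2 * P ≤ K) (ht : 0 ≤ t) (hw : 0 ≤ w)
    (hwt : w ≤ Real.exp (-t)) :
    w * t ^ P ≤ K ^ (P - 1) * (w * t) + K ^ (P - 1) * Real.exp (-(K / 2)) *
      (2 * ((t / 2) * Real.exp (-(t / 2)))) := by
  have hK0 : 0 < K := by linarith
  have hKP : 0 < K ^ (P - 1) := Real.rpow_pos_of_pos hK0 _
  rcases eq_or_lt_of_le ht with h0 | h0
  · rw [← h0, Real.zero_rpow (by linarith)]
    simp
  have htP : t ^ P = t * t ^ (P - 1) := by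
    rw [Real.rpow_sub h0, Real.rpow_one]; field_simp
  rcases le_total t K with h | h
  · have h1 : t ^ (P - 1) ≤ K ^ (P - 1) := Real.rpow_le_rpow ht h (by linarith)
    have h2 : w * t ^ P ≤ K ^ (P - 1) * (w * t) := by
      rw [htP]
      have : w * (t * t ^ (P - 1)) = t ^ (P - 1) * (w * t) := by ring
      rw [this]
      exact mul_le_mul_of_nonneg_right h1 (mul_nonneg hw ht)
    have h3 : 0 ≤ K ^ (P - 1) * Real.exp (-(K / 2)) *
      (2 * ((t / 2) * Real.exp (-(t / 2)))) := by positivity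
    linarith
  · have h1 : t ^ (P - 1) ≤ K ^ (P - 1) * Real.exp ((t - K) / 2) := by
      have h2 : (t / K) ^ (P - 1) ≤ Real.exp ((t - K) / 2) := by
        have h3 : 0 < t / K := by positivity
        rw [Real.rpow_def_of_pos h3]
        apply Real.exp_le_exp.2
        have h4 := Real.log_le_sub_one_of_pos h3
        have h5 : Real.log (t / K) * (P - 1) ≤ (t / K - 1) * (P - 1) :=
          mul_le_mul_of_nonneg_right h4 (by linarith)
        refine h5.trans ?_
        have h6 : t / K - 1 = (t - K) / K := by field_simp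
        rw [h6, div_mul_eq_mul_div, div_le_div_iff₀ hK0 (by norm_num)]
        nlinarith
      rw [Real.div_rpow ht hK0.le, div_le_iff₀ hKP] at h2
      linarith
    have h7 : w * t ^ P ≤ Real.exp (-t) * (t * (K ^ (P - 1) * Real.exp ((t - K) / 2))) := by
      rw [htP]
      apply mul_le_mul hwt _ (by positivity) (Real.exp_pos _).le
      exact mul_le_mul_of_nonneg_left h1 ht
    have h8 : Real.exp (-t) * (t * (K ^ (P - 1) * Real.exp ((t - K) / 2))) =
        K ^ (P - 1) * Real.exp (-(K / 2)) * (2 * ((t / 2) * Real.exp (-(t / 2)))) := by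
      have h9 : Real.exp (-t) * Real.exp ((t - K) / 2) =
          Real.exp (-(K / 2)) * Real.exp (-(t / 2)) := by
        rw [← Real.exp_add, ← Real.exp_add]; congr 1; ring
      calc Real.exp (-t) * (t * (K ^ (P - 1) * Real.exp ((t - K) / 2))) =
          t * K ^ (P - 1) * (Real.exp (-t) * Real.exp ((t - K) / 2)) := by ring
        _ = _ := by rw [h9]; ring
    rw [h8] at h7
    have h10 : 0 ≤ K ^ (P - 1) * (w * t) := by positivity
    linarith

theorem gp_le_exp {X : Type} [Fintype X] [Nonempty X] (d : X → X → ℝ)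
    (h0 : ∀ x, d x x = 0) (β : ℝ) (x z : X) : gp d β x z ≤ Real.exp (-(β * d x z)) := by
  unfold gp
  apply div_le_self (Real.exp_pos _).le
  unfold Zf
  have := Finset.single_le_sum (f := fun z => Real.exp (-(β * d x z)))
    (fun z _ => (Real.exp_pos _).le) (Finset.mem_univ x)
  simpa [h0 x] using this

theorem gibbs_pow_sum {X : Type} [Fintype X] [Nonempty X] (d : X → X → ℝ)
    (h0 : ∀ x, d x x = 0) (hn : ∀ x y, 0 ≤ d x y) (b : ℝ) (hb : 0 < b) (J : ℕ) (x : X)
    (P : ℝ) (hP : 1 ≤ P) :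
    ∑ j ∈ Finset.range J, ∑ z, gp d (b / 2 ^ j) x z * (b / 2 ^ j * d x z) ^ P ≤
      (2 * Real.log (Fintype.card X) + 2 * P) ^ (P - 1) * (2 * Real.log (Fintype.card X) + 4) := by
  have hc : (1:ℝ) ≤ Fintype.card X := by exact_mod_cast Fintype.card_pos
  have hlog : 0 ≤ Real.log (Fintype.card X) := Real.log_nonneg hc
  set K := 2 * Real.log (Fintype.card X) + 2 * P with hK
  have hK0 : 0 < K := by linarith
  have hKP : 0 < K ^ (P - 1) := Real.rpow_pos_of_pos hK0 _
  have h1 : ∀ j ∈ Finset.range J, ∑ z, gp d (b / 2 ^ j) x z * (b / 2 ^ j * d x z) ^ P ≤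
      K ^ (P - 1) * kap d (b / 2 ^ j) x + K ^ (P - 1) * Real.exp (-(K / 2)) *
        ∑ z, (2 * ((b * d x z / 2 / 2 ^ j) * Real.exp (-(b * d x z / 2 / 2 ^ j)))) := by
    intro j _
    unfold kap
    rw [Finset.mul_sum, Finset.mul_sum, ← Finset.sum_add_distrib]
    apply Finset.sum_le_sum
    intro z _
    have ht : 0 ≤ b / 2 ^ j * d x z := mul_nonneg (by positivity) (hn x z)
    have h2 := pow_term_bound P K (b / 2 ^ j * d x z) (gp d (b / 2 ^ j) x z) hP (by linarith) ht
      (gp_pos d _ x z).le (gp_le_exp d h0 _ x z)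
    have e : b * d x z / 2 / 2 ^ j = b / 2 ^ j * d x z / 2 := by ring
    rw [e]
    exact h2
  refine (Finset.sum_le_sum h1).trans ?_
  rw [Finset.sum_add_distrib, ← Finset.mul_sum, ← Finset.mul_sum, Finset.sum_comm]
  have h3 := kap_sum d h0 hn b hb J x
  have h4 : ∑ z : X, ∑ j ∈ Finset.range J,
      (2 * ((b * d x z / 2 / 2 ^ j) * Real.exp (-(b * d x z / 2 / 2 ^ j)))) ≤
      Fintype.card X * 4 := by
    calc ∑ z : X, ∑ j ∈ Finset.range J,
        (2 * ((b * d x z / 2 / 2 ^ j) * Real.exp (-(b * d x z / 2 / 2 ^ j)))) ≤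
        ∑ _z : X, (4:ℝ) := by
          apply Finset.sum_le_sum
          intro z _
          rw [← Finset.mul_sum]
          have := dyadic_sum (b * d x z / 2) (by have := hn x z; positivity) J
          linarith
      _ = _ := by simp
  have h5 : Real.exp (-(K / 2)) * Fintype.card X ≤ 1 := by
    have h6 : Real.exp (-(K / 2)) ≤ (Fintype.card X : ℝ)⁻¹ := by
      have h7 : (Fintype.card X : ℝ)⁻¹ = Real.exp (-(Real.log (Fintype.card X))) := by
        rw [Real.exp_neg, Real.exp_log (by linarith)]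
      rw [h7]
      apply Real.exp_le_exp.2
      linarith
    calc Real.exp (-(K / 2)) * Fintype.card X ≤ (Fintype.card X : ℝ)⁻¹ * Fintype.card X :=
          mul_le_mul_of_nonneg_right h6 (by linarith)
      _ = 1 := by field_simp
  have h8 : K ^ (P - 1) * Real.exp (-(K / 2)) * ∑ z : X, ∑ j ∈ Finset.range J,
      (2 * ((b * d x z / 2 / 2 ^ j) * Real.exp (-(b * d x z / 2 / 2 ^ j)))) ≤
      K ^ (P - 1) * 4 := by
    calc _ ≤ K ^ (P - 1) * Real.exp (-(K / 2)) * (Fintype.card X * 4) :=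
          mul_le_mul_of_nonneg_left h4 (by positivity)
      _ = K ^ (P - 1) * 4 * (Real.exp (-(K / 2)) * Fintype.card X) := by ring
      _ ≤ K ^ (P - 1) * 4 * 1 := mul_le_mul_of_nonneg_left h5 (by positivity)
      _ = _ := by ring
  have h9 := mul_le_mul_of_nonneg_left h3 hKP.le
  linarith

theorem osc_pair {X : Type} [Fintype X] [Nonempty X] (d : X → X → ℝ)
    (hn : ∀ x y, 0 ≤ d x y) (hs : ∀ x y, d x y = d y x)
    (ht : ∀ x y z, d x z ≤ d x y + d y z) (β : ℝ) (hβ : 0 ≤ β) (x y : X)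
    (h1 : β * d x y ≤ 1) (h2 : 1 / 2 ≤ β * d x y) (P : ℝ) (hP : 1 ≤ P) (a : X → ℝ) :
    |a x - a y| ^ P ≤ 32 ^ P * (β * d x y) ^ P *
      (∑ z, gp d β x z * |a z - a x| ^ P + ∑ z, gp d β y z * |a z - a y| ^ P) := by
  have hP0 : 0 < P := by linarith
  set A := ∑ z, gp d β x z * |a z - a x| with hA
  set B := ∑ z, gp d β y z * |a z - a y| with hB
  have hA0 : 0 ≤ A := Finset.sum_nonneg fun z _ => mul_nonneg (gp_pos d β x z).le (abs_nonneg _)
  have hB0 : 0 ≤ B := Finset.sum_nonneg fun z _ => mul_nonneg (gp_pos d β y z).le (abs_nonneg _)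
  have e1 : a x - a y = ∑ z, (-(gp d β x z * (a z - a x)) +
      (gp d β x z - gp d β y z) * (a z - a x) + gp d β y z * (a z - a y)) := by
    have : ∀ z, -(gp d β x z * (a z - a x)) +
      (gp d β x z - gp d β y z) * (a z - a x) + gp d β y z * (a z - a y) =
        gp d β y z * (a x - a y) := by intro z; ring
    rw [Finset.sum_congr rfl (fun z _ => this z), ← Finset.sum_mul, gp_sum, one_mul]
  have h3 : |a x - a y| ≤ 8 * A + B := by
    rw [e1]
    refine (Finset.abs_sum_le_sum_abs _ _).trans ?_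
    have h4 : ∀ z, |-(gp d β x z * (a z - a x)) +
        (gp d β x z - gp d β y z) * (a z - a x) + gp d β y z * (a z - a y)| ≤
        8 * (gp d β x z * |a z - a x|) + gp d β y z * |a z - a y| := by
      intro z
      have h5 := abs_add_le (-(gp d β x z * (a z - a x)) +
        (gp d β x z - gp d β y z) * (a z - a x)) (gp d β y z * (a z - a y))
      have h6 := abs_add_le (-(gp d β x z * (a z - a x)))
        ((gp d β x z - gp d β y z) * (a z - a x))
      rw [abs_neg, abs_mul, abs_mul, abs_of_pos (gp_pos d β x z)] at h6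
      have h6' := h6
      rw [abs_mul (gp d β y z), abs_of_pos (gp_pos d β y z)] at h5
      have h7 := gp_sub_le d hn hs ht β hβ x y z h1
      have h8 : |gp d β x z - gp d β y z| ≤ 7 * gp d β x z := by
        refine h7.trans ?_
        have := gp_pos d β x z
        nlinarith
      have h9 := mul_le_mul_of_nonneg_right h8 (abs_nonneg (a z - a x))
      linarith
    refine (Finset.sum_le_sum fun z _ => h4 z).trans ?_
    rw [Finset.sum_add_distrib, ← Finset.mul_sum]
  have h10 : |a x - a y| ^ P ≤ 16 ^ P * (A ^ P + B ^ P) := by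
    have h11 : |a x - a y| ≤ 16 * ((A + B) / 2) := by linarith
    have h12 : ((A + B) / 2) ^ P ≤ (A ^ P + B ^ P) / 2 := by
      have := (convexOn_rpow hP).2 (Set.mem_Ici.2 hA0) (Set.mem_Ici.2 hB0)
        (show (0:ℝ) ≤ 1 / 2 by norm_num) (show (0:ℝ) ≤ 1 / 2 by norm_num) (by norm_num)
      simp only [smul_eq_mul] at this
      have e2 : 1 / 2 * A + 1 / 2 * B = (A + B) / 2 := by ring
      rw [e2] at this
      linarith
    calc |a x - a y| ^ P ≤ (16 * ((A + B) / 2)) ^ P :=
          Real.rpow_le_rpow (abs_nonneg _) h11 hP0.le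
      _ = 16 ^ P * ((A + B) / 2) ^ P := Real.mul_rpow (by norm_num) (by positivity)
      _ ≤ 16 ^ P * (A ^ P + B ^ P) := by
          apply mul_le_mul_of_nonneg_left _ (by positivity)
          have : 0 ≤ A ^ P + B ^ P := by positivity
          linarith
  have hJA : A ^ P ≤ ∑ z, gp d β x z * |a z - a x| ^ P :=
    Real.rpow_arith_mean_le_arith_mean_rpow _ _ _ (fun z _ => (gp_pos d β x z).le)
      (gp_sum d β x) (fun z _ => abs_nonneg _) hP
  have hJB : B ^ P ≤ ∑ z, gp d β y z * |a z - a y| ^ P :=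
    Real.rpow_arith_mean_le_arith_mean_rpow _ _ _ (fun z _ => (gp_pos d β y z).le)
      (gp_sum d β y) (fun z _ => abs_nonneg _) hP
  have h13 : (16:ℝ) ^ P ≤ 32 ^ P * (β * d x y) ^ P := by
    rw [← Real.mul_rpow (by norm_num) (by linarith)]
    apply Real.rpow_le_rpow (by norm_num) _ hP0.le
    linarith
  calc |a x - a y| ^ P ≤ 16 ^ P * (A ^ P + B ^ P) := h10
    _ ≤ 16 ^ P * (∑ z, gp d β x z * |a z - a x| ^ P + ∑ z, gp d β y z * |a z - a y| ^ P) :=
        mul_le_mul_of_nonneg_left (add_le_add hJA hJB) (by positivity)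
    _ ≤ _ := by
        apply mul_le_mul_of_nonneg_right h13
        have : 0 ≤ A ^ P + B ^ P := by positivity
        linarith

theorem dyadic_scale (J : ℕ) (t : ℝ) (h1 : 1 ≤ t) (h2 : t ≤ 2 ^ J) :
    ∃ j ∈ Finset.range (J + 1), 1 / 2 ≤ t / 2 ^ j ∧ t / 2 ^ j ≤ 1 := by
  obtain ⟨n, hn1, hn2⟩ := exists_nat_pow_near h1 (show (1:ℝ) < 2 by norm_num)
  rcases eq_or_lt_of_le hn1 with h | h
  · refine ⟨n, ?_, ?_, ?_⟩
    · rw [Finset.mem_range]
      rw [← h] at h2
      have := (pow_le_pow_iff_right₀ (show (1:ℝ) < 2 by norm_num)).1 h2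
      omega
    · rw [← h, div_self (by positivity)]; norm_num
    · rw [← h, div_self (by positivity)]
  · refine ⟨n + 1, ?_, ?_, ?_⟩
    · rw [Finset.mem_range]
      have := (pow_lt_pow_iff_right₀ (show (1:ℝ) < 2 by norm_num)).1 (h.trans_le h2)
      omega
    · rw [le_div_iff₀ (by positivity), pow_succ]
      linarith
    · rw [div_le_iff₀ (by positivity)]
      linarith

end Vale.Agent.P249
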