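import Mathlib
import Vale.Agent.P249.Defs
import Vale.Agent.P249.StageA
import Vale.Agent.P249.Up.Sens
import Vale.Agent.P249.Up.SampleMul
import Vale.Agent.P249.Up.DiscDelta

open MeasureTheory
open scoped ENNReal BigOperators

namespace Vale.Agent.P249

universe u

theorem sens_exists (p : ℝ≥0∞) [Fact (1 ≤ p)] (hp : p ≠ ∞) {X : Type} [Fintype X] [Nonempty X]
    {m : ℕ} (g : X → PiLp p (fun _ : Fin m => ℝ)) (hg : Function.Injective g) :
    ∃ s : Fin m → ℝ, (∀ k, 0 ≤ s k) ∧
      (∀ k x y, |g x k - g y k| ^ p.toReal ≤ s k * ‖g x - g y‖ ^ p.toReal) ∧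
      ∑ k, s k ≤ 32 ^ p.toReal * (Fintype.card X *
        ((2 * Real.log (Fintype.card X) + 2 * p.toReal) ^ (p.toReal - 1) *
          (2 * Real.log (Fintype.card X) + 4))) := by
  classical
  have hP := one_le_toReal hp
  set P := p.toReal with hPd
  have hP0 : 0 < P := by linarith
  set d : X → X → ℝ := fun x y => ‖g x - g y‖ with hd
  have hd0 : ∀ x, d x x = 0 := fun x => by simp [hd]
  have hdn : ∀ x y, 0 ≤ d x y := fun x y => norm_nonneg _
  have hds : ∀ x y, d x y = d y x := fun x y => norm_sub_rev _ _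
  have hdt : ∀ x y z, d x z ≤ d x y + d y z := fun x y z => norm_sub_le_norm_sub_add_norm_sub _ _ _
  have hdpos : ∀ x y, x ≠ y → 0 < d x y := fun x y hxy =>
    norm_pos_iff.2 (sub_ne_zero.2 (fun h => hxy (hg h)))
  -- scale parameters
  obtain ⟨b, hb, hb1⟩ : ∃ b : ℝ, 0 < b ∧ ∀ x y, x ≠ y → 1 ≤ b * d x y := by
    by_cases hne : (Finset.univ.filter (fun q : X × X => q.1 ≠ q.2)).Nonempty
    · obtain ⟨q, hq, hmin⟩ := Finset.exists_min_image _ (fun q : X × X => d q.1 q.2) hne
      simp only [Finset.mem_filter, Finset.mem_univ, true_and] at hq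
      have hq0 := hdpos _ _ hq
      refine ⟨1 / d q.1 q.2, by positivity, fun x y hxy => ?_⟩
      have := hmin (x, y) (by simp [hxy])
      rw [one_div, inv_mul_eq_div, one_le_div hq0]
      exact this
    · refine ⟨1, one_pos, fun x y hxy => ?_⟩
      exact absurd ⟨(x, y), by simp [hxy]⟩ hne
  obtain ⟨M, hM⟩ : ∃ M : ℝ, ∀ x y, b * d x y ≤ M := by
    obtain ⟨q, -, hq⟩ := Finset.exists_max_image (Finset.univ : Finset (X × X))
      (fun q => b * d q.1 q.2) Finset.univ_nonempty
    exact ⟨b * d q.1 q.2, fun x y => hq (x, y) (Finset.mem_univ _)⟩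
  obtain ⟨J, hJ⟩ := pow_unbounded_of_one_lt M (show (1:ℝ) < 2 by norm_num)
  -- the term
  set F : Fin m → X → ℕ → ℝ := fun k x j =>
    ∑ z, gp d (b / 2 ^ j) x z * ((b / 2 ^ j) ^ P * |g z k - g x k| ^ P) with hF
  have hF0 : ∀ k x j, 0 ≤ F k x j := fun k x j =>
    Finset.sum_nonneg fun z _ => mul_nonneg (gp_pos d _ x z).le (by positivity)
  refine ⟨fun k => 32 ^ P * ∑ x, ∑ j ∈ Finset.range (J + 1), F k x j, fun k => ?_,
    fun k x y => ?_, ?_⟩
  · apply mul_nonneg (by positivity)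
    exact Finset.sum_nonneg fun x _ => Finset.sum_nonneg fun j _ => hF0 k x j
  · by_cases hxy : x = y
    · subst hxy
      simp [Real.zero_rpow hP0.ne']
    obtain ⟨j, hj, hj1, hj2⟩ := dyadic_scale J (b * d x y) (hb1 x y hxy) ((hM x y).trans hJ.le)
    have e1 : b * d x y / 2 ^ j = b / 2 ^ j * d x y := by ring
    rw [e1] at hj1 hj2
    have hβ : 0 ≤ b / 2 ^ j := by positivity
    have h1 := osc_pair d hdn hds hdt (b / 2 ^ j) hβ x y hj2 hj1 P hP (fun z => g z k)
    rw [Real.mul_rpow hβ (hdn x y)] at h1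
    have h2 : (b / 2 ^ j) ^ P * (∑ z, gp d (b / 2 ^ j) x z * |g z k - g x k| ^ P +
        ∑ z, gp d (b / 2 ^ j) y z * |g z k - g y k| ^ P) = F k x j + F k y j := by
      simp only [hF]
      rw [mul_add, Finset.mul_sum, Finset.mul_sum]
      congr 1 <;> exact Finset.sum_congr rfl fun z _ => by ring
    have h3 : F k x j + F k y j ≤ ∑ x, ∑ j ∈ Finset.range (J + 1), F k x j := by
      have h4 : ∀ x, F k x j ≤ ∑ j ∈ Finset.range (J + 1), F k x j := fun x =>
        Finset.single_le_sum (f := fun j => F k x j) (fun j _ => hF0 k x j) hj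
      have h5 : F k x j + F k y j = ∑ x ∈ {x, y}, F k x j := by
        rw [Finset.sum_pair hxy]
      rw [h5]
      calc ∑ x ∈ {x, y}, F k x j ≤ ∑ x ∈ {x, y}, ∑ j ∈ Finset.range (J + 1), F k x j :=
            Finset.sum_le_sum fun x _ => h4 x
        _ ≤ ∑ x, ∑ j ∈ Finset.range (J + 1), F k x j :=
            Finset.sum_le_sum_of_subset_of_nonneg (Finset.subset_univ _)
              (fun x _ _ => Finset.sum_nonneg fun j _ => hF0 k x j)
    calc |g x k - g y k| ^ P ≤ _ := h1
      _ = 32 ^ P * d x y ^ P * ((b / 2 ^ j) ^ P *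
          (∑ z, gp d (b / 2 ^ j) x z * |g z k - g x k| ^ P +
            ∑ z, gp d (b / 2 ^ j) y z * |g z k - g y k| ^ P)) := by ring
      _ = 32 ^ P * d x y ^ P * (F k x j + F k y j) := by rw [h2]
      _ ≤ 32 ^ P * d x y ^ P * ∑ x, ∑ j ∈ Finset.range (J + 1), F k x j :=
          mul_le_mul_of_nonneg_left h3 (mul_nonneg (by positivity)
            (Real.rpow_nonneg (hdn x y) _))
      _ = _ := by ring
  · rw [← Finset.mul_sum]
    apply mul_le_mul_of_nonneg_left _ (by positivity)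
    rw [Finset.sum_comm]
    have h6 : ∀ x, ∑ k, ∑ j ∈ Finset.range (J + 1), F k x j =
        ∑ j ∈ Finset.range (J + 1), ∑ z, gp d (b / 2 ^ j) x z * (b / 2 ^ j * d x z) ^ P := by
      intro x
      rw [Finset.sum_comm]
      refine Finset.sum_congr rfl fun j _ => ?_
      simp only [hF]
      rw [Finset.sum_comm]
      refine Finset.sum_congr rfl fun z _ => ?_
      rw [← Finset.mul_sum, ← Finset.mul_sum]
      congr 1
      rw [Real.mul_rpow (by positivity) (hdn x z)]
      congr 1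
      simp only [hd]
      rw [norm_sub_rev, pilp_rpow hp (g z - g x)]
      rfl
    calc ∑ x, ∑ k, ∑ j ∈ Finset.range (J + 1), F k x j =
        ∑ x, ∑ j ∈ Finset.range (J + 1), ∑ z, gp d (b / 2 ^ j) x z * (b / 2 ^ j * d x z) ^ P :=
          Finset.sum_congr rfl fun x _ => h6 x
      _ ≤ ∑ _x : X, ((2 * Real.log (Fintype.card X) + 2 * P) ^ (P - 1) *
          (2 * Real.log (Fintype.card X) + 4)) :=
          Finset.sum_le_sum fun x _ => gibbs_pow_sum d hd0 hdn b hb (J + 1) x P hP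
      _ = _ := by simp

end Vale.Agent.P249
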