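import Mathlib
import Vale.Agent.P249.Up.Main

open MeasureTheory
open scoped ENNReal BigOperators

namespace Vale.Agent.P249

universe u

theorem sample_embed (p : ℝ≥0∞) [Fact (1 ≤ p)] (hp : p ≠ ∞) {X : Type} [Fintype X] [Nonempty X]
    {m : ℕ} (g : X → PiLp p (fun _ : Fin m => ℝ)) (hg : Function.Injective g)
    (δ : ℝ) (hδ : 0 < δ) (hδ1 : δ < 1) (B : ℝ)
    (hB : 32 ^ p.toReal * (Fintype.card X *
        ((2 * Real.log (Fintype.card X) + 2 * p.toReal) ^ (p.toReal - 1) *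
          (2 * Real.log (Fintype.card X) + 4))) ≤ B)
    (N : ℕ) (hN0 : 0 < N)
    (hN : 2 * (Fintype.card X : ℝ) ^ 2 < Real.exp (δ ^ 2 * N / (4 * B))) :
    ∃ f : X → PiLp p (fun _ : Fin N => ℝ), ∀ x y,
      (1 - δ) * ‖g x - g y‖ ≤ ‖f x - f y‖ ∧ ‖f x - f y‖ ≤ (1 + δ) * ‖g x - g y‖ := by
  classical
  have hP := one_le_toReal hp
  obtain ⟨s, hs0, hs1, hs2⟩ := sens_exists p hp g hg
  set P := p.toReal with hPd
  have hP0 : 0 < P := by linarith
  set S := ∑ k, s k with hS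
  have hSB : S ≤ B := hs2.trans hB
  have hNR : (0:ℝ) < N := Nat.cast_pos.2 hN0
  -- trivial case
  by_cases htriv : ∀ x y : X, x = y
  · refine ⟨fun _ => 0, fun x y => ?_⟩
    rw [htriv x y]
    simp
  push Not at htriv
  obtain ⟨x₀, y₀, hxy₀⟩ := htriv
  have hpow : ∀ x y, ‖g x - g y‖ ^ P = ∑ k, |g x k - g y k| ^ P := by
    intro x y
    rw [pilp_rpow hp (g x - g y)]
    rfl
  have hdpos : ∀ x y, x ≠ y → 0 < ‖g x - g y‖ ^ P := fun x y hxy =>
    Real.rpow_pos_of_pos (norm_pos_iff.2 (sub_ne_zero.2 (fun h => hxy (hg h)))) P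
  have hS1 : 0 < S := by
    have h1 : ‖g x₀ - g y₀‖ ^ P ≤ S * ‖g x₀ - g y₀‖ ^ P := by
      rw [hS, Finset.sum_mul]
      conv_lhs => rw [hpow]
      exact Finset.sum_le_sum fun k _ => hs1 k x₀ y₀
    have h2 := hdpos x₀ y₀ hxy₀
    by_contra h3
    push Not at h3
    have h4 : S * ‖g x₀ - g y₀‖ ^ P ≤ 0 := mul_nonpos_of_nonpos_of_nonneg h3 h2.le
    linarith
  have hB0 : 0 < B := hS1.trans_le hSB
  -- sampling
  let Q := {q : X × X // q.1 ≠ q.2}
  let w : Fin m → ℝ := fun k => s k / S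
  let Y : Q → Fin m → ℝ := fun q k =>
    |g q.1.1 k - g q.1.2 k| ^ P / (s k * ‖g q.1.1 - g q.1.2‖ ^ P)
  have hw0 : ∀ k, 0 ≤ w k := fun k => div_nonneg (hs0 k) hS1.le
  have hw1 : ∑ k, w k = 1 := by
    simp only [w]
    rw [← Finset.sum_div]
    exact div_self hS1.ne'
  have hY0 : ∀ q k, 0 ≤ Y q k := fun q k =>
    div_nonneg (by positivity) (mul_nonneg (hs0 k) (by positivity))
  have hY1 : ∀ q k, Y q k ≤ 1 := fun q k =>
    div_le_one_of_le₀ (hs1 k q.1.1 q.1.2) (mul_nonneg (hs0 k) (by positivity))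
  have hsY : ∀ (q : Q) k, s k * Y q k = |g q.1.1 k - g q.1.2 k| ^ P / ‖g q.1.1 - g q.1.2‖ ^ P := by
    intro q k
    simp only [Y]
    rcases eq_or_lt_of_le (hs0 k) with h | h
    · have h1 := hs1 k q.1.1 q.1.2
      rw [← h, zero_mul] at h1
      have h2 : |g q.1.1 k - g q.1.2 k| ^ P = 0 := le_antisymm h1 (by positivity)
      rw [h2, ← h]
      simp
    · field_simp
  have hm : ∀ q, ∑ k, w k * Y q k = 1 / S := by
    intro q
    have h1 : ∀ k, w k * Y q k =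
        |g q.1.1 k - g q.1.2 k| ^ P / ‖g q.1.1 - g q.1.2‖ ^ P / S := by
      intro k
      rw [← hsY q k]
      simp only [w]
      ring
    rw [Finset.sum_congr rfl fun k _ => h1 k, ← Finset.sum_div, ← Finset.sum_div, ← hpow,
      div_self (hdpos _ _ q.2).ne']
  have hcard : (Fintype.card Q : ℝ) ≤ (Fintype.card X : ℝ) ^ 2 := by
    have h1 : Fintype.card Q ≤ Fintype.card (X × X) := Fintype.card_subtype_le _
    rw [Fintype.card_prod] at h1
    have h2 : (Fintype.card Q : ℝ) ≤ ((Fintype.card X * Fintype.card X : ℕ) : ℝ) := by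
      exact_mod_cast h1
    rw [sq]
    push_cast at h2
    exact h2
  obtain ⟨t, ht⟩ := sampling_mul w hw0 hw1 Y hY0 hY1 (1 / S) (by positivity) hm δ hδ hδ1.le N hN0
    (by
      calc 2 * (Fintype.card Q : ℝ) ≤ 2 * (Fintype.card X : ℝ) ^ 2 := by linarith
        _ < _ := hN
        _ ≤ _ := by
          apply Real.exp_le_exp.2
          have e : δ ^ 2 * (1 / S) * N / 4 = δ ^ 2 * N / (4 * S) := by field_simp
          rw [e]
          apply div_le_div_of_nonneg_left (by positivity) (by positivity)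
          linarith)
  -- the map
  let f : X → PiLp p (fun _ : Fin N => ℝ) := fun x =>
    WithLp.toLp p (fun i => (S / (N * s (t i))) ^ (1 / P) * g x (t i))
  have hfpow : ∀ (q : Q), ‖f q.1.1 - f q.1.2‖ ^ P =
      S * ‖g q.1.1 - g q.1.2‖ ^ P * ((∑ i, Y q (t i)) / N) := by
    intro q
    rw [pilp_rpow hp (f q.1.1 - f q.1.2), Finset.sum_div, Finset.mul_sum]
    refine Finset.sum_congr rfl fun i _ => ?_
    have e1 : (f q.1.1 - f q.1.2) i = (S / (N * s (t i))) ^ (1 / P) *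
        (g q.1.1 (t i) - g q.1.2 (t i)) := by
      simp only [f, PiLp.sub_apply]
      ring
    have h0 : 0 ≤ S / (N * s (t i)) := div_nonneg hS1.le (mul_nonneg hNR.le (hs0 _))
    rw [← hPd, e1, abs_mul, abs_of_nonneg (Real.rpow_nonneg h0 _),
      Real.mul_rpow (Real.rpow_nonneg h0 _) (abs_nonneg _), ← Real.rpow_mul h0,
      one_div_mul_cancel hP0.ne', Real.rpow_one]
    have h1 := hsY q (t i)
    have h2 := hdpos _ _ q.2
    rw [eq_div_iff h2.ne'] at h1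
    rw [← h1]
    rcases eq_or_lt_of_le (hs0 (t i)) with h | h
    · have h3 : Y q (t i) = 0 := by simp [Y, ← h]
      rw [h3]
      simp
    · field_simp
  refine ⟨f, fun x y => ?_⟩
  by_cases hxy : x = y
  · subst hxy; simp
  have h1 := hfpow ⟨(x, y), hxy⟩
  have h2 := ht ⟨(x, y), hxy⟩
  simp only at h1
  set A := (∑ i, Y ⟨(x, y), hxy⟩ (t i)) / N with hA
  set D := ‖g x - g y‖ with hD
  have hD0 : 0 ≤ D := norm_nonneg _
  have hDP : 0 < D ^ P := hdpos x y hxy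
  rw [abs_le] at h2
  have h3 : (1 - δ) ≤ S * A := by
    have h4 : (1 - δ) * (1 / S) ≤ A := by linarith [h2.1]
    have h5 := mul_le_mul_of_nonneg_left h4 hS1.le
    have h6 : S * ((1 - δ) * (1 / S)) = 1 - δ := by field_simp
    linarith
  have h3' : S * A ≤ 1 + δ := by
    have h4 : A ≤ (1 + δ) * (1 / S) := by linarith [h2.2]
    have h5 := mul_le_mul_of_nonneg_left h4 hS1.le
    have h6 : S * ((1 + δ) * (1 / S)) = 1 + δ := by field_simp
    linarith
  have h7 : ‖f x - f y‖ ^ P = (S * A) * D ^ P := by rw [h1]; ring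
  constructor
  · have h8 : ((1 - δ) * D) ^ P ≤ ‖f x - f y‖ ^ P := by
      rw [h7, Real.mul_rpow (by linarith) hD0]
      apply mul_le_mul_of_nonneg_right _ hDP.le
      refine le_trans ?_ h3
      calc (1 - δ) ^ P ≤ (1 - δ) ^ (1:ℝ) :=
            Real.rpow_le_rpow_of_exponent_ge (by linarith) (by linarith) hP
        _ = 1 - δ := Real.rpow_one _
    exact (Real.rpow_le_rpow_iff (mul_nonneg (by linarith) hD0) (norm_nonneg _) hP0).1 h8
  · have h8 : ‖f x - f y‖ ^ P ≤ ((1 + δ) * D) ^ P := by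
      rw [h7, Real.mul_rpow (by linarith) hD0]
      apply mul_le_mul_of_nonneg_right _ hDP.le
      refine le_trans h3' ?_
      calc 1 + δ = (1 + δ) ^ (1:ℝ) := (Real.rpow_one _).symm
        _ ≤ (1 + δ) ^ P := Real.rpow_le_rpow_of_exponent_le (by linarith) hP
    exact (Real.rpow_le_rpow_iff (norm_nonneg _) (mul_nonneg (by linarith) hD0) hP0).1 h8

theorem up_params (P δ : ℝ) (hP : 1 ≤ P) (hδ : 0 < δ) :
    ∃ C : ℝ, 0 < C ∧ ∀ n : ℕ, 2 ≤ n → ∃ N : ℕ, 0 < N ∧ (N : ℝ) ≤ C * n * Real.log n ^ (P + 1) ∧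
      2 * (n : ℝ) ^ 2 < Real.exp (δ ^ 2 * N / (4 * (32 ^ P * (n *
        ((2 * Real.log n + 2 * P) ^ (P - 1) * (2 * Real.log n + 4)))))) := by
  refine ⟨96 * 32 ^ P * (5 * P) ^ (P - 1) / δ ^ 2 + 2 * 2 ^ (P + 1), by positivity,
    fun n hn => ?_⟩
  have hn2 : (2:ℝ) ≤ n := by exact_mod_cast hn
  have hn0 : (0:ℝ) < n := by linarith
  have hlog2 : (0.69:ℝ) < Real.log 2 := by
    have := Real.log_two_gt_d9; linarith
  have hL2 : Real.log 2 ≤ Real.log n := Real.log_le_log (by norm_num) hn2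
  set L := Real.log n with hL
  have hL0 : 0 < L := by linarith
  set B := 32 ^ P * (n * ((2 * L + 2 * P) ^ (P - 1) * (2 * L + 4))) with hB
  have hB0 : 0 < B := by positivity
  refine ⟨⌈4 * B / δ ^ 2 * (3 * L)⌉₊ + 1, by omega, ?_, ?_⟩
  · have h1 : ((⌈4 * B / δ ^ 2 * (3 * L)⌉₊ + 1 : ℕ) : ℝ) ≤ 4 * B / δ ^ 2 * (3 * L) + 2 := by
      push_cast
      have := Nat.ceil_lt_add_one (a := 4 * B / δ ^ 2 * (3 * L)) (by positivity)
      linarith
    refine h1.trans ?_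
    have h2 : (2 * L + 2 * P) ^ (P - 1) ≤ (5 * P) ^ (P - 1) * L ^ (P - 1) := by
      rw [← Real.mul_rpow (by positivity) hL0.le]
      apply Real.rpow_le_rpow (by positivity) _ (by linarith)
      nlinarith
    have h3 : 2 * L + 4 ≤ 8 * L := by linarith
    have hLP : L ^ (P - 1) * L * L = L ^ (P + 1) := by
      rw [← Real.rpow_add_one hL0.ne', ← Real.rpow_add_one hL0.ne']
      congr 1
      ring
    have h4 : B ≤ 32 ^ P * (n * (((5 * P) ^ (P - 1) * L ^ (P - 1)) * (8 * L))) := by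
      rw [hB]
      gcongr
    have h5 : 4 * B / δ ^ 2 * (3 * L) ≤
        96 * 32 ^ P * (5 * P) ^ (P - 1) / δ ^ 2 * n * L ^ (P + 1) := by
      calc 4 * B / δ ^ 2 * (3 * L) ≤
          4 * (32 ^ P * (n * (((5 * P) ^ (P - 1) * L ^ (P - 1)) * (8 * L)))) / δ ^ 2 * (3 * L) := by
            gcongr
        _ = 96 * 32 ^ P * (5 * P) ^ (P - 1) / δ ^ 2 * n * (L ^ (P - 1) * L * L) := by ring
        _ = _ := by rw [hLP]
    have h6 : (1:ℝ) ≤ 2 ^ (P + 1) * L ^ (P + 1) := by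
      rw [← Real.mul_rpow (by norm_num) hL0.le]
      apply Real.one_le_rpow _ (by linarith)
      linarith
    have h7 : (2:ℝ) ≤ 2 * 2 ^ (P + 1) * n * L ^ (P + 1) := by
      calc (2:ℝ) ≤ 2 * (2 ^ (P + 1) * L ^ (P + 1)) * 1 := by linarith
        _ ≤ 2 * (2 ^ (P + 1) * L ^ (P + 1)) * n := by
            apply mul_le_mul_of_nonneg_left (by linarith) (by positivity)
        _ = _ := by ring
    calc 4 * B / δ ^ 2 * (3 * L) + 2 ≤
        96 * 32 ^ P * (5 * P) ^ (P - 1) / δ ^ 2 * n * L ^ (P + 1) +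
          2 * 2 ^ (P + 1) * n * L ^ (P + 1) := add_le_add h5 h7
      _ = _ := by ring
  · have h1 : 4 * B / δ ^ 2 * (3 * L) < ((⌈4 * B / δ ^ 2 * (3 * L)⌉₊ + 1 : ℕ) : ℝ) := by
      push_cast
      have := Nat.le_ceil (4 * B / δ ^ 2 * (3 * L))
      linarith
    have h2 : 3 * L < δ ^ 2 * ((⌈4 * B / δ ^ 2 * (3 * L)⌉₊ + 1 : ℕ) : ℝ) / (4 * B) := by
      rw [lt_div_iff₀ (by positivity)]
      have h3 := mul_lt_mul_of_pos_left h1 (show 0 < δ ^ 2 by positivity)
      have h4 : δ ^ 2 * (4 * B / δ ^ 2 * (3 * L)) = 3 * L * (4 * B) := by field_simp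
      linarith
    refine lt_of_le_of_lt ?_ (Real.exp_lt_exp.2 h2)
    have h5 : Real.exp (3 * L) = (n : ℝ) ^ 3 := by
      rw [show 3 * L = ((3 : ℕ) : ℝ) * L by norm_num, Real.exp_nat_mul, hL, Real.exp_log hn0]
    rw [h5]
    nlinarith [sq_nonneg (n : ℝ)]

theorem upper_bound (p : ℝ≥0∞) [Fact (1 ≤ p)] (hp : p ≠ ∞) (D : ℝ) (hD : 1 < D) :
    ∃ C : ℝ, 0 < C ∧ ∀ n : ℕ, 2 ≤ n → ∃ d : ℕ,
      (d : ℝ) ≤ C * n * Real.log n ^ (p.toReal + 1) ∧ Suffices.{u} p n D d := by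
  have hP := one_le_toReal hp
  set r := Real.sqrt D with hr
  have hr1 : 1 < r := by rw [hr, Real.lt_sqrt (by norm_num)]; linarith
  have hr2 : r * r = D := Real.mul_self_sqrt (by linarith)
  set δ := (r - 1) / (r + 1) with hδd
  have hδ : 0 < δ := div_pos (by linarith) (by linarith)
  have hδ1 : δ < 1 := by rw [hδd, div_lt_one (by linarith)]; linarith
  have hδr : (1 + δ) = r * (1 - δ) := by
    rw [hδd]; field_simp; ring
  obtain ⟨C, hC, hC2⟩ := up_params p.toReal δ hP hδ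
  refine ⟨C, hC, fun n hn => ?_⟩
  obtain ⟨N, hN0, hN1, hN2⟩ := hC2 n hn
  refine ⟨N, hN1, fun α _ μ X hX => ?_⟩
  let e : X ≃ Fin n := X.equivFinOfCardEq hX
  have hfinj : Function.Injective (fun i : Fin n => ((e.symm i : X) : Lp ℝ p μ)) :=
    Subtype.val_injective.comp e.symm.injective
  have : Nonempty (Fin n) := ⟨⟨0, by omega⟩⟩
  obtain ⟨m, g, hg⟩ := discretize_delta μ p hp (fun i : Fin n => ((e.symm i : X) : Lp ℝ p μ))
    hfinj δ hδ hδ1
  have hginj : Function.Injective g := by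
    intro i j hij
    have h7 := (hg i j).1
    rw [hij, sub_self, norm_zero] at h7
    have h8 : ‖((e.symm i : X) : Lp ℝ p μ) - ((e.symm j : X) : Lp ℝ p μ)‖ = 0 := by
      apply le_antisymm _ (norm_nonneg _)
      by_contra h9
      push Not at h9
      have := mul_pos (show 0 < 1 - δ by linarith) h9
      linarith
    exact hfinj (sub_eq_zero.mp (norm_eq_zero.mp h8))
  obtain ⟨f, hf⟩ := sample_embed p hp g hginj δ hδ hδ1
    (32 ^ p.toReal * (n * ((2 * Real.log n + 2 * p.toReal) ^ (p.toReal - 1) *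
          (2 * Real.log n + 4)))) (by rw [Fintype.card_fin]) N hN0
    (by rw [Fintype.card_fin]; exact hN2)
  refine ⟨fun x => f (e x), (1 - δ) * (1 - δ), by nlinarith, fun x y => ?_⟩
  obtain ⟨a1, a2⟩ := hf (e x) (e y)
  obtain ⟨b1, b2⟩ := hg (e x) (e y)
  simp only [Equiv.symm_apply_apply] at b1 b2
  set t := ‖(x : Lp ℝ p μ) - (y : Lp ℝ p μ)‖ with ht
  have ht0 : 0 ≤ t := norm_nonneg _
  constructor
  · have := mul_le_mul_of_nonneg_left b1 (show 0 ≤ 1 - δ by linarith)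
    linarith
  · have h1 := mul_le_mul_of_nonneg_left b2 (show 0 ≤ 1 + δ by linarith)
    have h2 : (1 + δ) * ((1 + δ) * t) = D * ((1 - δ) * (1 - δ)) * t := by
      rw [← hr2, hδr]; ring
    linarith

end Vale.Agent.P249
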